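import Vale.Agent.P272.K.AMP.Main.Assembly
import Vale.Agent.P272.K.T4.Stmt

/-!
# QA: ampleness of `K_X` from nonpositive HSC of a Hermitian metric, nefness and bigness

Statements of the blocks.
-/

open scoped Manifold ContDiff ComplexOrder Topology
open Complex Set Filter MeasureTheory

set_option linter.all false

noncomputable section

namespace Vale.Agent.P272.K.QA

open INT (intX)
open AMP AMP.Main

/-! ### mollification -/

section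
variable {n : ℕ}

/-- `∫ k(y) F(x + δ y) dy` -/
def mol (k : Cm n → ℝ) (δ : ℝ) (F : Cm n → ℝ) (x : Cm n) : ℝ := ∫ y, k y * F (x + δ • y)

/-- `∫ k(y) M(x + δ y) dy` for matrices -/
def molM (k : Cm n → ℝ) (δ : ℝ) (M : Cm n → Matrix (Fin n) (Fin n) ℂ) (x : Cm n) :
    Matrix (Fin n) (Fin n) ℂ := Matrix.of fun a b => ∫ y, ((k y : ℝ) : ℂ) * M (x + δ • y) a b

/-- an admissible kernel, with the Harnack inequality for psh functions -/
structure Kern (k : Cm n → ℝ) : Prop where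
  smooth : ContDiff ℝ ∞ k
  nonneg : ∀ z, 0 ≤ k z
  supp : ∀ z, 1 ≤ ‖z‖ → k z = 0
  int : ∫ z, k z = 1
  harnack : ∀ R L σ : ℝ, 0 < R → 0 < L → 0 < σ → ∃ δ₀ : ℝ, 0 < δ₀ ∧ (L + 1) * δ₀ < R ∧
    ∀ δ : ℝ, 0 < δ → δ ≤ δ₀ → ∀ (x : Cm n) (v : Cm n → ℝ),
      (∀ z ∈ Metric.ball x R, ContDiffAt ℝ ∞ v z) →
      (∀ z ∈ Metric.ball x R, (cHess v z).PosSemidef) →
      (∀ z ∈ Metric.ball x R, v z ≤ 0) →
      ∀ y, ‖y - x‖ ≤ L * δ → v y ≤ (1 - σ) * mol k δ v x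

end

/-- **Block K3.** -/
def K3Block (n : ℕ) : Prop := ∃ k : Cm n → ℝ, Kern k

section
variable (n : ℕ) (X : Type) [TopologicalSpace X] [ChartedSpace (Cm n) X]
  [IsManifold 𝓘(ℂ, Cm n) ω X] [T2Space X] [CompactSpace X]

/-- **Block K1** (Chiose). `Γ` is given by psd matrix fields `P i` in charts `e i`. -/
def K1Block : Prop :=
  ∀ (G w : Chart n X → Cm n → Matrix (Fin n) (Fin n) ℂ) (_ : IsKahler G) (_ : IsKahler w)
    (ε : ℝ) (_ : 0 < ε)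
    (_ : ε * intX (fun e z => ((G e z)⁻¹ * w e z).trace.re * (G e z).det.re) <
      intX (fun e z => (G e z).det.re))
    (m : ℕ) (e : Fin m → Chart n X) (_ : ∀ i, e i ∈ atlas (Cm n) X)
    (P : Fin m → Cm n → Matrix (Fin n) (Fin n) ℂ)
    (_ : ∀ i a b, ContDiff ℝ ∞ (fun z => P i z a b)) (_ : ∀ i z, (P i z).PosSemidef)
    (K : Fin m → Set (Cm n)) (_ : ∀ i, IsCompact (K i)) (_ : ∀ i, K i ⊆ (e i).target)
    (_ : ∀ i z, z ∉ K i → P i z = 0)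
    (_ : 0 < ∑ i, ∫ z, (w (e i) z * P i z).trace.re),
    ∃ ψ : X → ℝ, SmoothFn (n := n) ψ ∧ (∀ e x, At e x → (addH G ψ e (e x)).PosDef) ∧
      ε * ∑ i, ∫ z, (w (e i) z * P i z).trace.re <
        ∑ i, ∫ z, (addH G ψ (e i) z * P i z).trace.re

/-- **Block K2** (separation). -/
def K2Block : Prop :=
  ∀ (G w : Chart n X → Cm n → Matrix (Fin n) (Fin n) ℂ) (_ : IsKahler G) (_ : IsKahler w)
    (ε : ℝ) (_ : 0 < ε)
    (_ : ε * intX (fun e z => ((G e z)⁻¹ * w e z).trace.re * (G e z).det.re) <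
      intX (fun e z => (G e z).det.re))
    (m : ℕ) (e : Fin m → Chart n X) (_ : ∀ i, e i ∈ atlas (Cm n) X)
    (K : Fin m → Set (Cm n)) (_ : ∀ i, IsCompact (K i))
    (k : Cm n → ℝ) (_ : Kern k) (δ : ℝ) (_ : 0 < δ)
    (_ : ∀ i, ∀ x ∈ K i, Metric.closedBall x δ ⊆ (e i).target),
    ∃ ψ : X → ℝ, SmoothFn (n := n) ψ ∧ (∀ e x, At e x → (addH G ψ e (e x)).PosDef) ∧
      ∀ i, ∀ x ∈ K i,
        (molM k δ (fun z => addH G ψ (e i) z - (ε : ℂ) • w (e i) z) x).PosSemidef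

/-- `i∂∂̄ log det w + t w`, a form in the class `K_X + t[w]` -/
def thetaT {n : ℕ} {X : Type} [TopologicalSpace X]
    (w : Chart n X → Cm n → Matrix (Fin n) (Fin n) ℂ) (t : ℝ) (e : Chart n X)
    (z : Cm n) : Matrix (Fin n) (Fin n) ℂ :=
  cHess (fun y => Real.log (w e y).det.re) z + (t : ℂ) • w e z

/-- `K_X` is nef and `(K_X)^n > 0` -/
structure NefBig {n : ℕ} {X : Type} [TopologicalSpace X] [ChartedSpace (Cm n) X]
    (w : Chart n X → Cm n → Matrix (Fin n) (Fin n) ℂ) : Prop where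
  nef : NefCanonical w 0
  big : ∀ φ : Chart n X → Cm n → ℝ, IsCanonicalMetric φ →
    ∃ I : ℝ, 0 < I ∧ IsIntegral (fun e z => (cHess (φ e) z).det.re) I

/-- **Block KC** (a regularised Kähler current in the canonical class). -/
def KCBlock [ConnectedSpace X] : Prop :=
  1 ≤ n → ∀ (w : Chart n X → Cm n → Matrix (Fin n) (Fin n) ℂ) (_ : IsKahler w) (_ : NefBig w),
    ∃ ε : ℝ, 0 < ε ∧ ∀ t : ℝ, 0 < t → t ≤ 1 → ∀ μ : ℝ, 0 < μ →
      ∃ f χ : X → ℝ, SmoothFn (n := n) f ∧ SmoothFn (n := n) χ ∧ (∀ x, f x ≤ 0) ∧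
        (∃ x, f x = 0) ∧ (∀ x, 0 ≤ χ x) ∧ (∀ x, χ x ≤ 1) ∧ IX w χ ≤ μ ∧
        ∀ e x, At e x → (addH (thetaT w t) f e (e x) -
          ((ε * (1 - χ x) : ℝ) : ℂ) • w e (e x)).PosSemidef

/-- **Block K4**: gluing of the mollified potentials. -/
def K4Block [ConnectedSpace X] : Prop := K2Block n X → K3Block n → KCBlock n X

/-- control of a twisted metric `g`: `det g ≤ e^{Λ + q} det w` with `q ≥ 0` in a fixed exponential
class -/
structure CtrlQ {n : ℕ} {X : Type} [TopologicalSpace X] [ChartedSpace (Cm n) X]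
    [IsManifold 𝓘(ℂ, Cm n) ω X] [T2Space X] [CompactSpace X]
    (w g : Chart n X → Cm n → Matrix (Fin n) (Fin n) ℂ) (q : X → ℝ) (Λ v0 V1 : ℝ) :
    Prop where
  kahler : IsKahler g
  ric : RicGe g
  q_smooth : SmoothFn (n := n) q
  q_nonneg : ∀ x, 0 ≤ q x
  q_int : IX w (fun x => Real.exp (4 * q x)) ≤ Λ
  upper : ∀ e x, At e x → ((Λ : ℂ) • w e (e x) +
    cHess (fun z => Real.log (g e z).det.re - Real.log (w e z).det.re - q (e.symm z)) (e x) -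
      g e (e x)).PosSemidef
  pot : ∀ e x, At e x →
    Real.log (g e (e x)).det.re - Real.log (w e (e x)).det.re - q x ≤ Λ
  vol_ge : v0 ≤ intX fun e z => (g e z).det.re
  vol_le : (intX fun e z => (g e z).det.re) ≤ V1

/-- **Block B5** (twisted Monge-Ampère equation):
`Ric(g) = -g + c (θ_t + i∂∂̄f) + t w`, `g` in the class `(1+c)(K_X + t[w])`. -/
def TwistBlock [ConnectedSpace X] : Prop :=
  1 ≤ n → ∀ (w : Chart n X → Cm n → Matrix (Fin n) (Fin n) ℂ) (_ : IsKahler w) (_ : NefBig w),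
    ∃ c : ℝ, 0 < c ∧ ∃ Λ v0 V1 : ℝ, 0 ≤ Λ ∧ 0 < v0 ∧
      ∀ t : ℝ, 0 < t → t ≤ 1 → ∀ f : X → ℝ, SmoothFn (n := n) f → (∀ x, f x ≤ 0) →
        (∃ x, f x = 0) → (∀ e x, At e x → (addH (thetaT w t) f e (e x)).PosSemidef) →
        ∃ g : Chart n X → Cm n → Matrix (Fin n) (Fin n) ℂ,
          CtrlQ w g (fun x => -(c * f x)) Λ v0 V1 ∧
          (∀ e x, At e x → -cHess (fun z => Real.log (g e z).det.re) (e x) + g e (e x) =
            (c : ℂ) • addH (thetaT w t) f e (e x) + (t : ℂ) • w e (e x)) ∧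
          ∃ φ : Chart n X → Cm n → ℝ, IsCanonicalMetric φ ∧ ∀ e x, At e x →
            g e (e x) = ((1 + c : ℝ) : ℂ) • (cHess (φ e) (e x) + (t : ℂ) • w e (e x))

/-- **Block B6** (consequences of `CtrlQ`). -/
def ExpBlock [ConnectedSpace X] : Prop :=
  1 ≤ n → ∀ (w : Chart n X → Cm n → Matrix (Fin n) (Fin n) ℂ) (_ : IsKahler w) (Λ v0 V1 : ℝ),
    0 ≤ Λ → 0 < v0 → ∃ α : ℝ, 0 < α ∧ ∃ CE Λ' : ℝ, 0 ≤ CE ∧ 0 ≤ Λ' ∧
      ∀ g q, CtrlQ w g q Λ v0 V1 →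
        ExpHyp g α CE ∧ (∀ x, 0 < trX g w x) ∧ -Λ' ≤ IX g (fun x => Real.log (trX g w x)) ∧
        ∀ χ : X → ℝ, Continuous χ → (∀ x, 0 ≤ χ x) → (∀ x, χ x ≤ 1) →
          IX g χ ≤ Λ' * Real.sqrt (IX w χ)

/-- **Block B7** (Steps 5-6 with a variable Ricci source). -/
def DDVar (w : Chart n X → Cm n → Matrix (Fin n) (Fin n) ℂ) : Prop :=
  ∀ ε : ℝ, 0 < ε → ∃ C : ℝ, 0 < C ∧
    ∀ g : Chart n X → Cm n → Matrix (Fin n) (Fin n) ℂ, IsKahler g →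
      ∀ χ : X → ℝ, SmoothFn (n := n) χ → (∀ x, 0 ≤ χ x) → (∀ x, χ x ≤ 1) →
      (∀ e x, At e x → (-cHess (fun z => Real.log (g e z).det.re) (e x) + g e (e x) -
        ((ε * (1 - χ x) : ℝ) : ℂ) • w e (e x)).PosSemidef) →
      ∀ B : X → ℝ, SmoothFn (n := n) B → (∀ x, 0 < B x) → (∀ x, B x ≤ 1) →
        IX g (fun x => ((B x)⁻¹) ^ (n - 2) * ((1 - χ x) * (trX g w x) ^ 2)) ≤
          C * (IX g (fun x => ((B x)⁻¹) ^ (n - 1)) +
            intX (fun e z => ((B (e.symm z))⁻¹) ^ n * sqE g (Hf g B) e z * (g e z).det.re))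

/-- **Block B7**: for every Hermitian metric with HSC `≤ 0`. -/
def DDVarBlock [ConnectedSpace X] : Prop :=
  3 ≤ n → ∀ (w h : Chart n X → Cm n → Matrix (Fin n) (Fin n) ℂ) (_ : IsKahler w)
    (_ : IsHermitian h) (_ : NonposHSC h), DDVar n X w

/-- **Block B8** (abstract form of Steps 7-11). -/
def AbsBlock [ConnectedSpace X] : Prop :=
  3 ≤ n → ∀ (w : Chart n X → Cm n → Matrix (Fin n) (Fin n) ℂ) (_ : IsKahler w)
    (α CE v0 V1 Λ' CD : ℝ), 0 < α → 0 ≤ CE → 0 < v0 → 0 ≤ Λ' → 0 ≤ CD →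
    ∃ M : ℝ, 0 < M ∧ ∀ D : ℝ, 0 ≤ D → ∃ μ : ℝ, 0 < μ ∧
      ∀ (g : Chart n X → Cm n → Matrix (Fin n) (Fin n) ℂ) (χ : X → ℝ), IsKahler g → RicGe g →
        (v0 ≤ intX fun e z => (g e z).det.re) → ((intX fun e z => (g e z).det.re) ≤ V1) →
        ExpHyp g α CE → (∀ x, 0 < trX g w x) →
        -Λ' ≤ IX g (fun x => Real.log (trX g w x)) →
        Continuous χ → (∀ x, 0 ≤ χ x) → (∀ x, χ x ≤ 1) → IX g χ ≤ μ →
        (∀ B : X → ℝ, SmoothFn (n := n) B → (∀ x, 0 < B x) → (∀ x, B x ≤ 1) →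
          IX g (fun x => ((B x)⁻¹) ^ (n - 2) * (trX g w x) ^ 2) ≤
            CD * (IX g (fun x => ((B x)⁻¹) ^ (n - 1)) +
              intX (fun e z => ((B (e.symm z))⁻¹) ^ n * sqE g (Hf g B) e z * (g e z).det.re)) +
            D * IX g (fun x => χ x * ((B x)⁻¹) ^ (n - 1))) →
        ∀ x, trX g w x ≤ M

end

end Vale.Agent.P272.K.QA
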